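import Vale.Agent.P144C.Defs
import Vale.Agent.P144L.G.Raw
import Vale.Agent.P144D.I.N5b.Cut

/-!
The norms of the field in terms of the pair.
-/

namespace Vale.Agent.P144C.N

open Finset Matrix Vale.Agent.P144Z Vale.Agent.P144L P144L.G

/-- The faces near a mark. -/
structure Fc (S : Set (ℤ × ℤ)) (ν : ℂ) : Prop where
  nrm : ‖ν‖ = 1
  epi : Epi S ν (√2 / 2)
  ins : ∃ k, -cn k ∈ S
  out : ∃ k, -cn k ∉ S

theorem Fc.inn {S : Set (ℤ × ℤ)} {ν : ℂ} (h : Fc S ν) {t D : ℕ} (ht : 9 * (D + 2) ≤ t)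
    {v : ℤ × ℤ} (hv : zd v (rd ν t) ≤ D) : v ∈ S := by
  obtain ⟨k, hk⟩ := h.ins
  have := h.epi _ hk _ (cn_rd h.nrm (D := D + 1) ht (d := v - rd ν t + cn k) (by
    have := B1b.zd_add (v - rd ν t) (cn k)
    have := zd_cn k
    rw [← zd_sub] at *
    omega))
  rwa [show -cn k + (rd ν t + (v - rd ν t + cn k)) = v by abel] at this

theorem Fc.ou {S : Set (ℤ × ℤ)} {ν : ℂ} (h : Fc S ν) {t D : ℕ} (ht : 9 * (D + 2) ≤ t)
    {v : ℤ × ℤ} (hv : zd v 0 ≤ D) : v - rd ν t ∉ S := by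
  obtain ⟨k, hk⟩ := h.out
  intro o
  have := h.epi _ o _ (cn_rd h.nrm (D := D + 1) ht (d := -(v + cn k)) (by
    have := B1b.zd_add v (cn k)
    have := zd_cn k
    rw [zd_neg]
    omega))
  rw [show v - rd ν t + (rd ν t + -(v + cn k)) = -cn k by abel] at this
  exact hk this

theorem fc_of {M : ℕ} {I : Finset (Tor M)} {r : ℕ} {z : Tor M} {a : Fin 4} {ν : ℂ}
    (h : Mk0 I r z a ν) (hr : 1 ≤ r) :
    ∃ S, Fc S ν ∧ ∀ v : ℤ × ℤ, zd v 0 ≤ r → (z + prj M v ∈ I ↔ v ∈ S) := by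
  obtain ⟨S, h2, h4⟩ := h.cone
  have en : ∀ k, z - prj M (cn k) = z + prj M (-cn k) := fun k => by
    rw [IConv.prj_neg, sub_eq_add_neg]
  have hz : ∀ k, zd (-cn k) 0 ≤ r := fun k => by rw [zd_neg]; exact (zd_cn k).trans hr
  obtain ⟨k, hk⟩ := h.touch
  exact ⟨S, ⟨h.nrm, h2, ⟨k, (h4 _ (hz k)).1 (en k ▸ hk)⟩,
    ⟨a, fun h' => h.rem.2 (en _ ▸ (h4 _ (hz _)).2 h')⟩⟩, h4⟩

theorem tele {f g : ℤ → ℝ} {ρ : ℕ} (g0 : ∀ x, 0 ≤ g x)
    (h : ∀ x : ℤ, -(ρ : ℤ) ≤ x → x + 1 ≤ ρ → |f (x + 1) - f x| ≤ g (x + 1)) {x y : ℤ}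
    (hx : x.natAbs ≤ ρ) (hy : y.natAbs ≤ ρ) : f x - f y ≤ ∑ t ∈ Icc (-(ρ : ℤ)) ρ, g t := by
  have key : ∀ (x : ℤ) (n : ℕ), -(ρ : ℤ) ≤ x → x + n ≤ ρ →
      |f (x + n) - f x| ≤ ∑ t ∈ Ioc x (x + n), g t := by
    intro x n h1
    induction n with
    | zero => simp
    | succ n ih =>
      intro h2
      push_cast at h2 ⊢
      rw [← add_assoc, ← Finset.insert_Ioc_right_eq_Ioc_add_one (by omega), sum_insert (by simp)]
      have a1 := ih (by omega)
      have a2 := h (x + n) (by omega) (by omega)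
      have a3 := abs_sub_le (f (x + n + 1)) (f (x + n)) (f x)
      linarith
  have k2 : ∀ x y : ℤ, x.natAbs ≤ ρ → y.natAbs ≤ ρ → x ≤ y →
      |f y - f x| ≤ ∑ t ∈ Icc (-(ρ : ℤ)) ρ, g t := fun x y hx hy hxy => by
    have := key x (y - x).toNat (by omega) (by omega)
    rw [show x + ((y - x).toNat : ℕ) = y by omega] at this
    refine this.trans (sum_le_sum_of_subset_of_nonneg (fun t ht => ?_) fun t _ _ => g0 t)
    rw [mem_Ioc] at ht
    rw [mem_Icc]
    omega
  rcases le_total x y with o | o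
  · linarith [(abs_le.1 (k2 x y hx hy o)).1]
  · linarith [(abs_le.1 (k2 y x hy hx o)).2]

theorem sum_sh {F : ℤ → ℝ} (F0 : ∀ x, 0 ≤ F x) {ρ m : ℕ} {p : ℤ} (hp : p.natAbs + m ≤ ρ) :
    ∑ j ∈ range (m + 1), F (p + j) ≤ ∑ t ∈ Icc (-(ρ : ℤ)) ρ, F t := by
  rw [← sum_image (g := fun j : ℕ => p + j) (f := F) fun i _ j _ h => by
    simp only at h; omega]
  refine sum_le_sum_of_subset_of_nonneg (fun t ht => ?_) fun t _ _ => F0 t
  obtain ⟨j, hj, rfl⟩ := mem_image.1 ht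
  rw [mem_range] at hj
  rw [mem_Icc]
  omega

/-- Two families of lines. -/
theorem lines {W g : ℤ × ℤ → ℝ} {ρ m : ℕ} (g0 : ∀ v, 0 ≤ g v)
    (h : ∀ v k k', zd v 0 ≤ ρ → W (v - cn k) - W (v - cn k') ≤ g v) {p q : ℤ × ℤ}
    (hp : zd p 0 + m ≤ ρ) (hq : zd q 0 + m ≤ ρ) {A : ℝ}
    (hA : ∀ j : ℕ, j ≤ m → A ≤ W (p + ((j : ℤ), (j : ℤ))) - W (q + ((j : ℤ), (j : ℤ)))) :
    (m + 1) * A ≤ 2 * ∑ v ∈ HomDec.box ρ, g v := by
  simp only [zd, Prod.fst_zero, Prod.snd_zero, sub_zero] at hp hq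
  have ab : ∀ v k k', zd v 0 ≤ ρ → |W (v - cn k) - W (v - cn k')| ≤ g v := fun v k k' hv =>
    abs_le.2 ⟨by linarith [h v k' k hv], h v k k' hv⟩
  have key : ∀ j ∈ range (m + 1), A ≤ ∑ t ∈ Icc (-(ρ : ℤ)) ρ, g (t, p.2 + j) +
      ∑ t ∈ Icc (-(ρ : ℤ)) ρ, g (q.1 + j, t) := by
    intro j hj
    rw [mem_range] at hj
    have a1 := tele (f := fun x => W (x, p.2 + j)) (g := fun x => g (x, p.2 + j)) (ρ := ρ)
      (fun _ => g0 _) (fun x h1 h2 => by
        simpa [cn] using ab (x + 1, p.2 + j) 0 1 (by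
          simp only [zd, Prod.fst_zero, Prod.snd_zero, sub_zero]; omega))
      (x := p.1 + j) (y := q.1 + j) (by omega) (by omega)
    have a2 := tele (f := fun x => W (q.1 + j, x)) (g := fun x => g (q.1 + j, x)) (ρ := ρ)
      (fun _ => g0 _) (fun x h1 h2 => by
        simpa [cn] using ab (q.1 + j, x + 1) 0 3 (by
          simp only [zd, Prod.fst_zero, Prod.snd_zero, sub_zero]; omega))
      (x := p.2 + j) (y := q.2 + j) (by omega) (by omega)
    have a3 := hA j (by omega)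
    change A ≤ W (p.1 + j, p.2 + j) - W (q.1 + j, q.2 + j) at a3
    linarith
  have b1 := sum_le_sum key
  rw [sum_const, card_range, nsmul_eq_mul, sum_add_distrib] at b1
  have b2 := sum_sh (F := fun y => ∑ t ∈ Icc (-(ρ : ℤ)) ρ, g (t, y)) (ρ := ρ) (m := m) (p := p.2)
    (fun _ => sum_nonneg fun _ _ => g0 _) (by omega)
  have b3 := sum_sh (F := fun y => ∑ t ∈ Icc (-(ρ : ℤ)) ρ, g (y, t)) (ρ := ρ) (m := m) (p := q.1)
    (fun _ => sum_nonneg fun _ _ => g0 _) (by omega)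
  rw [sum_comm (s := Icc _ _)] at b2
  rw [HomDec.box, sum_product]
  push_cast at b1
  linarith

/-- A walk in a finite set. -/
theorem walk {P : ℤ × ℤ → Prop} {W : ℤ × ℤ → ℝ} {B : Finset (ℤ × ℤ)} (hB : ∀ v, P v → v ∈ B)
    (h4 : ∀ v, P v → ∀ a, W (v + st4 a) ≤ 4 * W v) {a b : ℤ × ℤ} (hb : P b) (h0 : 0 ≤ W b)
    (h : GeoA.Rch P b a) : (1 / 4) ^ B.card * W b ≤ W a := by
  classical
  let E : ℕ → Finset (ℤ × ℤ) := fun i => B.filter fun v => (1 / 4) ^ i * W b ≤ W v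
  have mo : ∀ i, E i ⊆ E (i + 1) := fun i v hv => by
    obtain ⟨h1, h2⟩ := mem_filter.1 hv
    refine mem_filter.2 ⟨h1, le_trans ?_ h2⟩
    have : 0 ≤ (1 / 4 : ℝ) ^ i * W b := by positivity
    rw [pow_succ]
    nlinarith
  have b0 : ∀ i, b ∈ E i := fun i => by
    induction i with
    | zero => exact mem_filter.2 ⟨hB b hb, by simp⟩
    | succ i ih => exact mo i ih
  have key : ∀ i, i + 1 ≤ (E i).card ∨ a ∈ E i := fun i => by
    induction i with
    | zero => exact Or.inl (card_pos.2 ⟨b, b0 0⟩)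
    | succ i ih =>
      rcases ih with ih | ih
      swap
      · exact Or.inr (mo i ih)
      by_cases c : E (i + 1) ⊆ E i
      swap
      · have := card_lt_card (⟨mo i, c⟩ : E i ⊂ E (i + 1))
        exact Or.inl (by omega)
      refine Or.inr (mo i ?_)
      induction h with
      | refl => exact b0 i
      | @tail u v _ h2 ih2 =>
        obtain ⟨d, rfl⟩ : ∃ d, u = v + st4 d := by
          rcases h2.2.2 with h | h | h | h
          exacts [⟨2, by rw [h]; simp [st4, add_assoc]⟩, ⟨3, by rw [h]; simp [st4, add_assoc]⟩,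
            ⟨0, by rw [h]; simp [st4, add_assoc]⟩, ⟨1, by rw [h]; simp [st4, add_assoc]⟩]
        refine c (mem_filter.2 ⟨hB v h2.2.1, ?_⟩)
        have a1 := (mem_filter.1 ih2).2
        have a2 := h4 v h2.2.1 d
        rw [pow_succ]
        linarith
  rcases key B.card with k | k
  · have := card_filter_le B fun v => (1 / 4) ^ B.card * W b ≤ W v
    exact absurd k (by simp only [E]; omega)
  · exact (mem_filter.1 k).2

theorem nrmM : NrmM := by
  classical
  obtain ⟨C, hC, hχ⟩ := chi_cmp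
  obtain ⟨C₁, hC₁, H₁⟩ := HomDec.l2_of_sup 7 (by norm_num)
  refine ⟨40 * C + 2 * C₁, 40, by linarith, fun ρ hρ => ⟨(1 / 4) ^ (HomDec.box (20 * ρ)).card,
    by positivity, fun M _ I r R z a ν φ U W hm h hR hM A => ⟨fun s hs hsR => ?_, fun hρR hA => ?_⟩⟩⟩
  · obtain ⟨S, hS, hI⟩ := fc_of hm (by omega)
    have s0 : (40 : ℝ) ≤ s := by exact_mod_cast hs
    have z1 := zd_rd hS.nrm s
    refine ⟨fun A0 hA => ?_, fun hA => ?_⟩
    · have a1 := lines (W := W) (g := fun v => ∑ k, chi φ (z + prj M v) k ^ 2) (ρ := 2 * s)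
        (m := s / 20) (fun _ => by positivity) (fun v k k' hv => by
          have b1 := h.dif v k (by omega)
          have b2 := h.dif v k' (by omega)
          have b3 := single_le_sum (f := fun j => chi φ (z + prj M v) j ^ 2)
            (fun j _ => sq_nonneg _) (mem_univ k')
          nlinarith [sq_nonneg (chi φ (z + prj M v) k)]) (p := rd ν s) (q := -rd ν s) (by omega)
        (by rw [zd_neg]; omega) (A := A) fun j hj => by
          have b1 : zd ((j : ℤ), (j : ℤ)) 0 = j := by simp [zd]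
          have b2 := B1b.zd_sub ((j : ℤ), (j : ℤ)) (rd ν s)
          rw [neg_add_eq_sub, h.zero _ (by omega) fun o => hS.ou (D := j) (by omega) b1.le
            ((hI _ (by omega)).1 o), sub_zero]
          exact hA _ (by rw [zd_add_left]; omega)
      have a2 : ∑ v ∈ HomDec.box (2 * s), ∑ k, chi φ (z + prj M v) k ^ 2 ≤
          C * l2 z φ (2 * s) := by
        rw [← sum_image (g := fun v => z + prj M v) (f := fun x => ∑ k, chi φ x k ^ 2)
          fun u hu v hv e => IN5b.prj_inj (HomDec.mem_box.1 hu) (HomDec.mem_box.1 hv) (by omega)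
            (add_left_cancel e), l2, l2sq, mul_sum]
        refine le_trans (sum_le_sum_of_subset_of_nonneg (fun x hx => ?_) fun _ _ _ => by positivity)
          (sum_le_sum fun x _ => (hχ M φ x).2)
        obtain ⟨v, hv, rfl⟩ := mem_image.1 hx
        exact G.mem_ball.2 ((GeoA.tdist_le_zd z _).trans (HomDec.mem_box.1 hv))
      have a3 : (s : ℝ) ≤ 20 * (((s / 20 : ℕ) : ℝ) + 1) := by exact_mod_cast (by omega)
      have a4 := E4.l2sq_nonneg (ball z (2 * s)) φ
      nlinarith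
    · have le : ∀ v k, zd v 0 ≤ R → W (v - cn k) ≤ U v := fun v k hv => by
        linarith [h.dif v k hv, sq_nonneg (chi φ (z + prj M v) k)]
      have u0 : ∀ v, zd v 0 ≤ R → 0 ≤ U v := fun v hv => by
        have := le v 0 hv
        rw [B1a1.sub_cn_zero] at this
        exact (h.nn v (by omega)).trans this
      have a1 := H₁ M (IN5a.rg I) z φ U W s R A ⟨le, fun v hv o => h.zero v hv
        ((IN5a.out_iff I z v).1 o), fun v a hp => by
          rw [IN5a.pr_iff, not_or] at hp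
          rwa [IN5a.out_iff, IN5a.out_iff], IN5a.pr_symm I z, fun v hv => (h.sub v (by omega)).1,
        fun v hv o => h.sup v (by omega) (by rwa [IN5a.out_iff, not_not] at o)⟩ (by omega)
        (fun v hv => by simpa only [IN5a.vx_eq] using (h.sub v (by omega)).2) fun v hv => by
          rw [abs_of_nonneg (u0 v (by omega))]
          exact hA v (by omega)
      have A0 : 0 ≤ A := (u0 0 (by simp [zd])).trans (hA 0 (by simp [zd]))
      refine a1.trans (mul_le_mul_of_nonneg_right ?_ A0)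
      nlinarith
  · obtain ⟨S, hS, hI⟩ := fc_of hm (by omega)
    obtain ⟨k, hk⟩ := hS.ins
    have z1 := zd_rd hS.nrm ρ
    have z2 := zd_cn k
    have z3 : rd ν ρ ∈ S := hS.inn (D := 0) (t := ρ) (by omega) (by simp [zd])
    have z4 : zd (rd ν ρ) (-cn k) ≤ ρ + 1 := by
      have := B1b.zd_add (rd ν ρ) (cn k)
      rw [zd_sub, sub_neg_eq_add]
      omega
    have z5 : ∀ v, zd v (-cn k) ≤ 16 * (ρ + 1) → zd v 0 ≤ 20 * ρ := fun v hv => by
      have := GeoA.zd_tri v (-cn k) 0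
      rw [zd_neg] at this
      omega
    have a1 := walk (W := W) (B := HomDec.box (20 * ρ))
      (fun v hv => HomDec.mem_box.2 (z5 v hv.2)) (fun v hv => IN5a.nb_le
        (h.sup v (by have := z5 v hv.2; omega) ((hI v (by have := z5 v hv.2; omega)).2 hv.1))
        fun a => h.nn _ (by have := z5 v hv.2; have := B1a1.zd_step v a; omega)) ⟨z3, by omega⟩
      (h.nn _ (by omega)) (rch_epi hS.nrm hS.epi hk z3 z4).symm
    have a2 := h.dif 0 k (by simp [zd])
    have a3 := h.dif 0 a (by simp [zd])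
    have a4 := h.hom (z, a) (by simp [tdist_self])
    rw [IN5b.Dm_hedge, IConv.pwI_hedge_zero.2 hm.rem] at a4
    rw [h.zero _ (by have := zd_cn a; rw [zero_sub, zd_neg]; omega) (by
      rw [zero_sub, IConv.prj_neg, ← sub_eq_add_neg]; exact hm.rem.2), G.prj_zero, add_zero, chi,
      show ∑ b, sA a b * φ (z, b) = 0 by simpa using a4, zero_sub, neg_sq] at a3
    rw [zero_sub] at a2
    have a5 := mul_le_mul_of_nonneg_left (hA (rd ν ρ) (by simp [zd]))
      (show (0 : ℝ) ≤ (1 / 4) ^ (HomDec.box (20 * ρ)).card by positivity)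
    nlinarith [sq_nonneg (chi φ (z + prj M 0) k)]

end Vale.Agent.P144C.N
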