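import Vale.Agent.P144C.N.Nrm
import Vale.Agent.P144C.L.Conv
import Vale.Agent.P144D.I.Blocks

/-!
The lower bound on the Green function between two marks.
-/

namespace Vale.Agent.P144C.N

open Finset Matrix Vale.Agent.P144Z Vale.Agent.P144L P144L.G

theorem fl_near {x : ℝ} (hx : |x| ≤ 1) {t t' m : ℕ} (h1 : t ≤ t' + m) (h2 : t' ≤ t + m) :
    (⌊t * x⌋ - ⌊t' * x⌋).natAbs ≤ m + 1 := by
  have a1 : |(t : ℝ) - t'| ≤ m := by
    have b1 : (t : ℝ) ≤ t' + m := by exact_mod_cast h1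
    have b2 : (t' : ℝ) ≤ t + m := by exact_mod_cast h2
    exact abs_le.2 ⟨by linarith, by linarith⟩
  have a2 := abs_le.1 (GeoA.abs_mul_le a1 hx)
  have b1 := Int.floor_le (t * x)
  have b2 := Int.lt_floor_add_one (t * x)
  have b3 := Int.floor_le (t' * x)
  have b4 := Int.lt_floor_add_one (t' * x)
  have c1 : ⌊t * x⌋ - ⌊t' * x⌋ ≤ (m : ℤ) + 1 := by
    have : ((⌊t * x⌋ - ⌊t' * x⌋ : ℤ) : ℝ) ≤ ((m : ℤ) + 1 : ℤ) := by push_cast; linarith
    exact_mod_cast this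
  have c2 : ⌊t' * x⌋ - ⌊t * x⌋ ≤ (m : ℤ) + 1 := by
    have : ((⌊t' * x⌋ - ⌊t * x⌋ : ℤ) : ℝ) ≤ ((m : ℤ) + 1 : ℤ) := by push_cast; linarith
    exact_mod_cast this
  omega

theorem rd_near {ν : ℂ} (hν : ‖ν‖ = 1) {t t' m : ℕ} (h1 : t ≤ t' + m) (h2 : t' ≤ t + m) :
    zd (rd ν t) (rd ν t') ≤ m + 1 :=
  max_le (fl_near (GeoA.abs_re hν) h1 h2) (fl_near (GeoA.abs_im hν) h1 h2)

/-- A Harnack chain along the axis of the cone. -/
theorem climb {c : ℝ} (hc : 0 < c) (H : IN5b.Harn 5 c) {S : Set (ℤ × ℤ)} {ν : ℂ} (hS : Fc S ν)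
    {m t t' D n R : ℕ} {W : ℤ × ℤ → ℝ} {A : ℝ} (hm : 1 ≤ m) (hn : 1 ≤ n) (hA : 0 ≤ A)
    (h0 : ∀ v, zd v 0 ≤ R → 0 ≤ W v ∧ (v ∈ S → SupH W v)) (ht : 9 * (6 * m + 2) ≤ t)
    (ht' : 9 * (D + 6 * m + 2) ≤ t') (h1 : t ≤ t' + n * m) (h2 : t' ≤ t + n * m)
    (h3 : D ≤ n * m) (hR : t + t' + D + 6 * m + 1 ≤ R) (hW : ∀ v, zd v (rd ν t) ≤ m → A ≤ W v) :
    ∀ v, zd v (rd ν t') ≤ D → c ^ (2 * n + 2) * A ≤ W v := by
  intro y hy
  have zr : ∀ s v, zd v 0 ≤ zd v (rd ν s) + s := fun s v => by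
    have := GeoA.zd_tri v (rd ν s) 0
    have := zd_rd hS.nrm s
    omega
  have a1 := IN5b.chain_sq (n := n) (p := fun i => rd ν (max (t - i * m) (min (t + i * m) t')))
    hc H hm hA (fun i _ => (rd_near hS.nrm (m := m) (by rw [add_mul]; omega)
      (by rw [add_mul]; omega)).trans (by omega))
    (fun i _ v hv => (h0 v (by have := zr (max (t - i * m) (min (t + i * m) t')) v; omega)).1)
    (fun i _ v hv => (h0 v (by have := zr (max (t - i * m) (min (t + i * m) t')) v; omega)).2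
      (hS.inn (by omega) hv)) (fun v hv => hW v (by simpa using hv)) n le_rfl
  rw [show max (t - n * m) (min (t + n * m) t') = t' by omega] at a1
  have hd : zd (y - rd ν t') 0 ≤ D := by rwa [← zd_sub]
  have zs : ∀ i ≤ n, ∀ v, zd v (rd ν t') ≤
      zd v (rd ν t' + IN5a.seg 0 (y - rd ν t') n i) + D := fun i hi v => by
    have := GeoA.zd_tri v (rd ν t' + IN5a.seg 0 (y - rd ν t') n i) (rd ν t')
    have := IN5a.seg_box (x := 0) hn (by simp [zd]) hd hi
    rw [zd_add_left] at *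
    omega
  have a2 := IN5b.chain_sq (n := n) (p := fun i => rd ν t' + IN5a.seg 0 (y - rd ν t') n i)
    hc H hm (A := c ^ (n + 1) * A) (by positivity) (fun i _ => by
      rw [IN5b.zd_shift]
      exact (IN5a.seg_step (s := m) hn (by rw [GeoA.zd_comm]; omega) i).trans (by omega))
    (fun i hi v hv => (h0 v (by have := zr t' v; have := zs i hi v; omega)).1)
    (fun i hi v hv => (h0 v (by have := zr t' v; have := zs i hi v; omega)).2
      (hS.inn (D := D + 6 * m) ht' (by have := zs i hi v; omega)))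
    (fun v hv => a1 v (by rw [IN5a.seg_zero, add_zero] at hv; omega)) n le_rfl y
    (by rw [IN5a.seg_last _ _ hn]; simp [zd])
  rwa [← mul_assoc, ← pow_add, show n + 1 + (n + 1) = 2 * n + 2 by ring] at a2

section

variable {M : ℕ} [NeZero M]

theorem atA {A A' : Gauge M} {ℓ ℓ' R : ℕ} {s : Tor M × Fin 4} {u : Tor M × Fin 4 → ℝ}
    {ν ν' c η : ℝ} (h : MkAt2 A ℓ ℓ' s u ν ν' c η)
    (hA : ∀ e : Tor M × Fin 2, tdist e.1 s.1 ≤ R → A e = A' e) (h1 : 3 * ℓ + 4 ≤ R)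
    (h2 : 2 * ℓ' + 4 ≤ R) : MkAt2 A' ℓ ℓ' s u ν ν' c η := by
  have k : ∀ r, r + 4 ≤ R → ∀ ρ g, hsq A' ρ (ball s.1 r) g = hsq A ρ (ball s.1 r) g :=
    fun r hr ρ g => (W.hsq_congrA (fun e he => hA e (he.trans hr)) ρ g).symm
  refine ⟨h.one, h.pos, h.pos', fun g => ?_, fun g => ?_, ?_, fun w => ?_, h.le, h.ge⟩
  · rw [k _ (by omega)]; exact h.dom g
  · rw [k _ h2]; exact h.dom' g
  · rw [k _ h1]; exact h.test
  · rw [k _ h1, k _ (by omega)]; exact h.rank w

theorem chA {A A' : Gauge M} {L J : ℕ} {s : Tor M × Fin 4} {u : ℕ → Tor M × Fin 4 → ℝ}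
    {ν : ℕ → ℝ} {c η : ℝ} (h : MkCh2 A L J s u ν c η) (hL : 1 ≤ L) (hJ : 1 ≤ J)
    (hA : ∀ e : Tor M × Fin 2, tdist e.1 s.1 ≤ 3 * sc L J + 4 → A e = A' e) :
    MkCh2 A' L J s u ν c η := by
  have m : ∀ j ≤ J, sc L j ≤ sc L J := fun j hj => IN5b.sc_mono hL hj
  refine ⟨atA h.zero hA (by have := m 0 (by omega); omega) (by have := m 1 hJ; omega), h.nu0,
    fun j h1 h2 => atA (h.pos j h1 h2) hA (by have := m j (by omega); omega)
      (by have := m (j + 1) h2; omega), fun j h1 h2 t ht => ?_⟩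
  have := W.Dm_pow_congr (A := A) (A' := A') (z := s.1) (u j) 1 (3 * sc L (j + 1))
    (fun e he => hA e (by have := m (j + 1) h2; omega)) t.1 t.2 ht
  rw [pow_one, pow_one] at this
  exact this ▸ h.hom j h1 h2 t ht

theorem of_side {I Ia : Finset (Tor M)} {z : Tor M} {N ρ r : ℕ} {a : Fin 4} {ν : ℂ}
    (m : MkT2 Ia N ρ z a ν) (h : Side I Ia z ρ) (hs : I ⊆ Ia) (hr : r + 2 ≤ ρ) :
    MkT2 I N r z a ν := by
  obtain ⟨S, h2, h4⟩ := m.cone
  obtain ⟨k, hk⟩ := m.touch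
  obtain ⟨Hs, Vs, t1, t2⟩ := m.tr
  refine ⟨⟨m.nrm, ⟨S, h2, fun v hv => (h.mem_iff hs ((GeoA.tdist_le_zd z v).trans
    (by omega))).trans (h4 v (by omega))⟩, ⟨fun h' => m.rem.1 (hs h'), fun h' => m.rem.2 (hs h')⟩,
    k, (h z (by rw [tdist_self]; omega) ⟨k, hk⟩ k).2 hk⟩, Hs, Vs,
    fun x hx ⟨⟨f, a1, a2⟩, f', a3, a4⟩ => t1 x (by omega) ⟨⟨f, hs a1, a2⟩, f', fun o => a3
      ((h.mem_iff hs (by have := tdist_triangle f' x z; omega)).2 o), a4⟩, t2⟩

theorem nu_le {A : Gauge M} {ℓ ℓ' : ℕ} {s : Tor M × Fin 4} {u : Tor M × Fin 4 → ℝ}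
    {ν ν' c η : ℝ} (h : MkAt2 A ℓ ℓ' s u ν ν' c η) (hc : 1 ≤ c) : ν' ^ 2 ≤ ν ^ 2 :=
  pow_le_pow_left₀ h.pos'.le (by nlinarith [h.le, h.pos']) 2

end

/-- The Green function between two far marks of a corridor is bounded below. -/
def TwoPt3 : Prop := ∀ (N₀ : ℕ) (c : ℝ), 1 ≤ c → ∀ L ≥ 8, ∃ C₀ : ℕ, ∀ N : ℕ, ∃ c₀ > (0 : ℝ),
  ∃ J₀ : ℕ, ∀ J ≥ J₀, ∀ (M : ℕ) [NeZero M] (I Ia : Finset (Tor M)) (T q : ℕ) (a b : Tor M)
    (ea eb : Fin 4) (na nb : ℂ) (η : ℝ) (ua ub : ℕ → Tor M × Fin 4 → ℝ) (νa νb : ℕ → ℝ),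
    Corr I T q N (a + prj M (rd na (8 * q))) (b + prj M (rd nb (8 * q))) → I ⊆ Ia →
    Side I Ia a (16 * q) → Side I Ia b (16 * q) → MkT2 Ia N₀ (16 * q) a ea na →
    MkT2 Ia N₀ (16 * q) b eb nb → 16 * q < tdist a b → C₀ * sc L J ≤ q → 16 * q ≤ T →
    T ≤ N * sc L J → 128 * T ≤ M → MkCh2 (pwI Ia) L J (a, ea) ua νa c η →
    MkCh2 (pwI Ia) L J (b, eb) ub νb c η →
    ∀ φ, Dm (pwI I) *ᵥ φ = Pi.single (a, ea) 1 → c₀ * νa J * νb J ≤ |φ (b, eb)|

open IN5b Classical in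
theorem twoPt3 (hA : AllM) (hP : PosV) : TwoPt3 := by
  intro N₀ c hc L hL
  obtain ⟨QA, ρA, cA, cA0, -, hA⟩ := hA
  obtain ⟨QP, -, hP⟩ := hP N₀
  obtain ⟨c5, c50, H5⟩ := harnStmt 5
  obtain ⟨Γ, G1, hG⟩ := gapU
  obtain ⟨Cl, hCl, low⟩ := IN5a.lower
  refine ⟨QA + QP + 3, fun N => ?_⟩
  set n := 12800 * ((N + 1) * L) with hn
  set c' := c5 ^ (2 * n + 2) * ((min c5 1) ^ (N + 1) * (c5 ^ (2 * n + 2) * (cA / (Cl * c ^ 2))))
    with hc'
  have c'0 : 0 < c' := by positivity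
  obtain ⟨cB, cB0, ρB, hP⟩ := hP ((Γ * (N + 1) * N) ^ 2 * L / c')
  refine ⟨√(cB * c') / c, by positivity, ρA + ρB + 101, fun J hJ M _ I Ia T q a b ea eb na nb η
    ua ub νa νb hC hs sa sb ma mb ab hq hqT hT hM cha chb φ hφ => ?_⟩
  obtain ⟨j, rfl⟩ : ∃ j, J = j + 1 := ⟨J - 1, by omega⟩
  obtain ⟨l, hl⟩ : ∃ l, l = L ^ j := ⟨_, rfl⟩
  have l1 : j < l := hl ▸ Nat.lt_pow_self (by omega)
  have s1 : sc L j = 8 * l := by rw [sc, hl]
  have s2 : sc L (j + 1) = 8 * (L * l) := by rw [sc, hl, pow_succ']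
  have l2' : 8 * l ≤ L * l := Nat.mul_le_mul_right _ hL
  have q1 : QA * (10 * l) + QP * (8 * l) + 3 * sc L (j + 1) ≤ q := by
    rw [add_mul, add_mul] at hq
    have b1 := Nat.mul_le_mul_left QA (show 10 * l ≤ sc L (j + 1) by omega)
    have b2 := Nat.mul_le_mul_left QP (show 8 * l ≤ sc L (j + 1) by omega)
    omega
  have q2 : 8 * q ≤ n * (l / 100) := by
    have b1 := Nat.mul_le_mul_left (64 * ((N + 1) * L)) (show l ≤ 200 * (l / 100) by omega)
    have b2 : n * (l / 100) = 64 * ((N + 1) * L) * (200 * (l / 100)) := by rw [hn]; ring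
    have b3 : 64 * ((N + 1) * L) * l = 8 * (N * (8 * (L * l))) + 64 * (L * l) := by ring
    rw [s2] at hT
    omega
  have n1 : 1 ≤ n := Nat.pos_of_ne_zero fun o => by rw [o, zero_mul] at q2; omega
  replace ma := of_side (r := 15 * q) ma sa hs (by omega)
  replace mb := of_side (r := 15 * q) mb sb hs (by omega)
  replace cha := chA cha (by omega) (by omega) fun e he =>
    sa.pw hs e (le_trans (Nat.succ_le_succ he) (by omega))
  replace chb := chA chb (by omega) (by omega) fun e he =>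
    sb.pw hs e (le_trans (Nat.succ_le_succ he) (by omega))
  have lf : ∀ z : Tor M, TouchT I z → zd (lft z) 0 ≤ T + 1 := by
    intro z ⟨k, hk⟩
    have := hC.box _ hk
    have := tdist_triangle z (z - prj M (cn k)) 0
    have := GeoA.tdist_le_zd z (-cn k)
    rw [IConv.prj_neg, ← sub_eq_add_neg, zd_neg0, tdist_comm] at this
    have := IN5b.zd_cn k
    rw [IConv.zd_lft_zero]
    omega
  have xa := lf a ma.touch
  have xb := lf b mb.touch
  have gap : ∀ ψ, ψ ⬝ᵥ ψ ≤ (Γ * (N + 1) * N * sc L (j + 1)) ^ 2 *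
      ((Dm (pwI I) *ᵥ ψ) ⬝ᵥ (Dm (pwI I) *ᵥ ψ)) := fun ψ => by
    refine (hG M I T N (by omega) (by omega) hC.box hC.tr ψ).trans
      (mul_le_mul_of_nonneg_right (pow_le_pow_left₀ (by positivity) ?_ 2)
        (E4.l2sq_univ (Dm (pwI I) *ᵥ ψ) ▸ E4.l2sq_nonneg _ _))
    rw [mul_assoc _ (N : ℝ)]
    exact mul_le_mul_of_nonneg_left (by exact_mod_cast hT) (by positivity)
  obtain ⟨u, w, u1, w1, -, u2⟩ := srcStmt M I T (lft a) ea φ hC.box hC.conn (by omega) (by omega)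
    xa (by rw [prj_lft]; exact IConv.pwI_hedge_zero.2 ma.rem) (by rwa [prj_lft])
  have ata := cha.pos j (by omega) (by omega)
  have atb := chb.pos j (by omega) (by omega)
  have a1 : ∀ v, zd v (lft a + rd na (8 * q)) ≤ q / 3 →
      c5 ^ (2 * n + 2) * (cA / (Cl * c ^ 2) * νa (j + 1) ^ 2) ≤ w v := by
    obtain ⟨φ', U, W, h, hW⟩ := IN5a.exists_LD (Ia := I) (q := q) hC.box xa
      (fun _ _ _ _ => Iff.rfl) (by rw [prj_lft]; exact ma.touch) (by omega) (by omega) (by omega)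
      (by rwa [prj_lft]) u1 w1 u2
    rw [prj_lft] at h
    obtain ⟨v', hv', hmax⟩ := IN5a.exists_max U (10 * l)
    have u0 := h.U_nn (v := v') (by omega)
    have b1 : νa j ^ 2 ≤ Cl * c ^ 2 * U v' := by
      refine low M I _ _ _ φ' U W h l (ua j) _ c _ (by omega) (by omega) ata.one
        (fun s hs => cha.hom j (by omega) (by omega) s (by simp only; omega)) ?_ u0 hmax
      have b1 := ata.test
      rw [s1, show 3 * (8 * l) = 24 * l by ring] at b1
      push_cast at b1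
      exact (mul_le_mul_of_nonneg_right (E4.l2sq_le_hsq _ _ _ _) (sq_nonneg _)).trans b1
    have b2 := hA M I _ _ a ea na φ' U W ma.toMk0 h le_rfl (by omega) (10 * l) (by omega)
      (by omega) v' hv'
    obtain ⟨S, hS, hI⟩ := fc_of ma.toMk0 (by omega)
    intro v hv
    have z1 : zd (v - lft a) (rd na (8 * q)) ≤ q / 3 := by rwa [← zd_sub0, sub_sub, zd_sub0]
    have b3 := climb c50 H5 hS (m := l / 100) (t := 10 * l) (t' := 8 * q) (D := q / 3) (n := n)
      (R := 15 * q) (W := W) (A := cA / (Cl * c ^ 2) * νa (j + 1) ^ 2) (by omega) n1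
      (by positivity) (fun v hv => ⟨h.nn v (by omega), fun o => h.sup v hv ((hI v hv).2 o)⟩)
      (by omega) (by omega) (by omega) (by omega) (by omega) (by omega) (fun v hv => by
        refine le_trans ?_ (b2 v (by omega))
        rw [div_mul_eq_mul_div, div_le_iff₀ (by positivity), mul_assoc]
        exact mul_le_mul_of_nonneg_left (by linarith [nu_le ata hc]) cA0.le) _ z1
    have b4 := hW (v - lft a) (by
      have := GeoA.zd_tri (v - lft a) (rd na (8 * q)) 0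
      have := zd_rd ma.nrm (8 * q)
      omega)
    rw [add_sub_cancel] at b4
    exact b3.trans b4
  obtain ⟨k, hk, p, p0, pn, p1, p2⟩ := hC.chain
  have pT : ∀ i ≤ k, zd (lft (p i)) 0 ≤ T := fun i hi => by
    rw [IConv.zd_lft_zero]
    exact hC.box _ (p2 i hi _ (by rw [tdist_self]; omega))
  have pe : ∀ i ≤ k, ∀ (z : Tor M) (e : ℂ), ‖e‖ = 1 → zd (lft z) 0 ≤ T + 1 →
      p i = z + prj M (rd e (8 * q)) → lft (p i) = lft z + rd e (8 * q) := by
    intro i hi z e he hz h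
    refine prj_inj (M := M) (s := 10 * T) ((pT i hi).trans (by omega)) ?_ (by omega) ?_
    · have := zd_add0 (lft z) (rd e (8 * q))
      have := zd_rd he (8 * q)
      omega
    · rw [G.prj_add, prj_lft, prj_lft, h]
  have ch := chain_sq (m := q / 3) (n := k) (p := fun i => lft (p i)) c50 H5 (by omega)
    (w := w) (A := c5 ^ (2 * n + 2) * (cA / (Cl * c ^ 2) * νa (j + 1) ^ 2)) (by positivity)
    (fun i hi => by
      have := GeoA.zd_tri (lft (p (i + 1))) 0 (lft (p i))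
      have := pT i hi.le
      have := pT (i + 1) hi
      rw [GeoA.zd_comm 0] at *
      rw [← IConv.tdist_prj (M := M) (by omega), prj_lft, prj_lft]
      exact (p1 i hi).trans (by omega))
    (fun i hi v hv => (w1 v (by
      have := GeoA.zd_tri v (lft (p i)) 0; have := pT i hi; omega)).1)
    (fun i hi v hv => (w1 v (by
      have := GeoA.zd_tri v (lft (p i)) 0; have := pT i hi; omega)).2.2 (p2 i hi _ (by
        have := IConv.tdist_prj_le_zd (M := M) v (lft (p i))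
        rw [prj_lft] at this
        omega)))
    (fun v hv => a1 v (by rwa [← pe 0 (by omega) a na ma.nrm xa p0])) k le_rfl
  simp only [pe k le_rfl b nb mb.nrm xb pn] at ch
  have pb : ∀ v, prj M (lft b + v) = b + prj M v := fun v => by rw [G.prj_add, prj_lft]
  have zb : ∀ v, zd (lft b + v) 0 ≤ T + 1 + zd v 0 := fun v => by
    have := zd_add0 (lft b) v; omega
  have w2 : ∀ v, zd v 0 ≤ 15 * q → 0 ≤ w (lft b + v) ∧ (b + prj M v ∉ I → w (lft b + v) = 0) ∧
      (b + prj M v ∈ I → SupH (fun v => w (lft b + v)) v) := fun v hv => by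
    have := zb v
    have h1 := w1 (lft b + v) (by omega)
    rw [pb] at h1
    simpa only [SupH, add_assoc] using h1
  obtain ⟨S, hS, hI⟩ := fc_of mb.toMk0 (by omega)
  have a2 : Dq (fun v => w (lft b + v)) nb (8 * l) (c' * νa (j + 1) ^ 2) := fun v hv => by
    rw [hc', mul_assoc]
    refine climb c50 H5 hS (m := l / 100) (t := 8 * q) (t' := 8 * l) (D := 8 * l / 10) (n := n)
      (R := 15 * q) (W := fun v => w (lft b + v)) (by omega) n1 (by positivity)
      (fun v hv => ⟨(w2 v hv).1, fun o => (w2 v hv).2.2 ((hI v hv).2 o)⟩) (by omega) (by omega)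
      (by omega) (by omega) (by omega) (by omega) (fun v hv => ?_) v (by omega)
    refine le_trans ?_ (ch (lft b + v) (by rw [zd_shift]; omega))
    rw [mul_assoc, mul_assoc]
    refine mul_le_mul_of_nonneg_right ?_ (by positivity)
    exact (pow_le_pow_of_le_one (by positivity) (min_le_right _ _) (by omega)).trans
      (pow_le_pow_left₀ (by positivity) (min_le_left _ _) _)
  set f : Tor M × Fin 4 → ℝ := fun s => if s.1 ∈ ball b (8 * l) then φ s else 0 with hf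
  have d1 : f ⬝ᵥ f ≤ (Γ * (N + 1) * N * νa (j + 1)) ^ 2 * sc L (j + 1) := by
    refine dual (ρ := 2 * sc L (j + 1) + 3) (fun _ _ _ _ => Iff.rfl) le_rfl ma.touch (by omega)
      ata.dom' gap hφ (fun s => ?_) fun s h1 _ => if_neg fun h => ?_
    · simp only [hf]
      split_ifs <;> simp
    · have := tdist_triangle a s.1 b
      have := E4.mem_ball.1 h
      rw [tdist_comm] at h1
      omega
  have b1 := hP M I _ b eb nb (8 * l) mb (by rw [← IConv.zd_lft_zero]; omega) (by omega)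
    (by omega) φ (fun v => u (lft b + v)) (fun v => w (lft b + v)) (c' * νa (j + 1) ^ 2) (ub j)
    ⟨fun v k hv => ?_, fun v hv => (w2 v (by omega)).1, fun v hv => (w2 v (by omega)).2.1,
      fun v hv => (w2 v (by omega)).2.2, fun v hv => ?_, fun s hs => ?_⟩ (by positivity) a2 ?_
    (fun s hs => chb.hom j (by omega) (by omega) s (by simp only; omega)) atb.one
  · have b2 := atb.test
    have b3 : l2 b (ub j) (8 * l) ≤ hsq (pwI I) (sc L j) (ball b (3 * sc L j)) (ub j) :=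
      (E4.l2sq_mono (ball_le b (by omega)) _).trans (E4.l2sq_le_hsq _ _ _ _)
    have b4 := (mul_le_mul_of_nonneg_right b3 (sq_nonneg (νb j))).trans b2
    rw [s1] at b4
    have l0 : (0 : ℝ) < (8 * l : ℕ) := by exact_mod_cast (by omega)
    generalize ((8 * l : ℕ) : ℝ) = ρ at b1 b4 l0
    have b5 := mul_le_mul_of_nonneg_right b1 (sq_nonneg (νb j))
    have b6 := mul_le_mul_of_nonneg_left b4 (sq_nonneg (φ (b, eb)))
    have b7 := mul_le_mul_of_nonneg_left (nu_le atb hc)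
      (show 0 ≤ cB * (c' * νa (j + 1) ^ 2) * ρ by positivity)
    have b8 : cB * c' * νa (j + 1) ^ 2 * νb (j + 1) ^ 2 ≤ φ (b, eb) ^ 2 * c ^ 2 :=
      le_of_mul_le_mul_right (by nlinarith) l0
    refine (le_abs_self _).trans (sq_le_sq.1 ?_)
    rw [mul_pow, mul_pow, div_pow, Real.sq_sqrt (by positivity), div_mul_eq_mul_div,
      div_mul_eq_mul_div, div_le_iff₀ (by positivity)]
    exact b8
  · have := zb v
    rw [← pb, ← add_sub_assoc]
    exact u1 (lft b + v) k (by omega)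
  · have := zb v
    have h1 := u2 (lft b + v) (by omega) fun o => by
      have := GeoA.tdist_le_zd b v
      rw [← pb, o, prj_lft] at this
      omega
    have e : (IN5a.rg I).pr b = fun v => (IN5a.rg I).pr 0 (lft b + v) := by
      rw [← IN5a.pr_shift, prj_lft, zero_add]
    rw [pb] at h1
    simpa only [e, B1a1.GG_shift] using h1
  · rw [hφ, Pi.single_eq_of_ne]
    rintro rfl
    simp only at hs
    omega
  · have e1 : l2sq (ball b (8 * l)) φ = l2sq (ball b (8 * l)) f :=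
      E4.l2sq_congr fun s hs => (if_pos hs).symm
    rw [l2, e1]
    refine ((E4.l2sq_mono (subset_univ _) f).trans (E4.l2sq_univ f).le).trans (d1.trans_eq ?_)
    rw [s2]
    push_cast
    field_simp

end Vale.Agent.P144C.N
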